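import Vale.Agent.P330.W.WMach

/-!
# Project W: block systems (semantics)

`BlockSem T`: sites with wires, blocks, states with their codes, the check, the decoder with missing
inputs, the steps.  `BlockSem.Facts`: the hypotheses (P1) - (P4) of the composition theorem.
-/

namespace Vale.Agent.P330.W

open Finset
open Q (Dyn St)

/-- A block system. -/
structure BlockSem (T : Type) where
  /-- sites -/
  Ω : Type
  fΩ : Fintype Ω
  dΩ : DecidableEq Ω
  nΩ : Nonempty Ω
  wire : T → Ω ≃ Ω
  /-- blocks -/
  Blk : Type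
  dBlk : DecidableEq Blk
  /-- states -/
  X : Type
  D : Dyn X
  code : X → Ω → Blk
  /-- the check passes -/
  chi : Ω → (T → Blk) → Prop
  /-- corrected block -/
  eta : Ω → (T → Option Blk) → Blk
  /-- block of the successor (`false`), predecessor (`true`) -/
  phi : Bool → Ω → (T → Blk) → Blk

attribute [instance] BlockSem.fΩ BlockSem.dΩ BlockSem.nΩ BlockSem.dBlk

/-- Constants of a family of block systems. -/
structure KConst where
  /-- distance -/
  θ : ℝ
  /-- factor of the soundness -/
  C : ℝ
  /-- radius of the decoder -/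
  ρ : ℝ
  /-- admissible fraction of failing sites -/
  η : ℝ
  θ_pos : 0 < θ
  C_pos : 1 ≤ C
  ρ_pos : 0 < ρ
  η_pos : 0 < η

/-- States to which the codes, the distance and the decoder apply: valid states, successors and
predecessors of valid states. -/
def BlockSem.Reach {T : Type} (S : BlockSem T) (x : S.X) : Prop :=
  S.D.Valid x ∨ ∃ z y, S.D.Valid y ∧ x = S.D.step z y

open Classical in
/-- The hypotheses of the composition theorem. -/
structure BlockSem.Facts {T : Type} (S : BlockSem T) (c : KConst) : Prop where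
  /-- (P1) soundness of the check, with missing blocks -/
  sound : ∀ s : S.Ω → Option S.Blk,
    (#(univ.filter fun h => ¬ ∃ b : T → S.Blk, (∀ t, s (S.wire t h) = some (b t)) ∧ S.chi h b) : ℝ) ≤
      c.η * Fintype.card S.Ω →
    ∃ x, S.D.Valid x ∧ (#(univ.filter fun h => s h ≠ some (S.code x h)) : ℝ) ≤ c.C *
      #(univ.filter fun h => ¬ ∃ b : T → S.Blk, (∀ t, s (S.wire t h) = some (b t)) ∧ S.chi h b)
  complete : ∀ x, S.D.Valid x → ∀ h, S.chi h fun t => S.code x (S.wire t h)
  /-- (P2) distance -/
  dist : ∀ x y, S.Reach x → S.Reach y → x ≠ y →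
    c.θ * Fintype.card S.Ω ≤ #(univ.filter fun h => S.code x h ≠ S.code y h)
  /-- (P3) decoder -/
  dec : ∀ x, S.Reach x → ∀ s : S.Ω → Option S.Blk,
    (#(univ.filter fun h => s h ≠ some (S.code x h)) : ℝ) ≤ c.ρ * Fintype.card S.Ω →
    (#(univ.filter fun h => S.eta h (fun t => s (S.wire t h)) ≠ S.code x h) : ℝ) ≤
      1 / 2 * #(univ.filter fun h => s h ≠ some (S.code x h))
  /-- (P4) steps -/
  step : ∀ z x, S.D.Valid x → ∀ h,
    S.phi z h (fun t => S.code x (S.wire t h)) = S.code (S.D.step z x) h

end Vale.Agent.P330.W
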