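import Mathlib

/-!
# Project W (full answer of P330): bundle systems

`BSys T Lab` is what the register machine needs to know of the algebra: sites `Ω`, `O(1)` wires
`wire t`, the positions `pos : Ω → (Fin κ → ZMod 2)`, a field `K`, and for every word
`u : (Fin κ → ZMod 2) → K` its bundle `bw β u : Ω → Lab → K`, `β : Fin nb`, with

* links: the entry `β` of the bundle is at every site a function of the earlier entries at the
  neighbours;
* all entries lie in the (Tanner) code `M`, which has local checks, distance, a closure operator for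
  local checks, and a decoder;
* the anchor: an array which satisfies all links, checks and anchor tests outside a small set is a
  true bundle outside the closure of the set;
* the entries `base` (raw content at the label `b0`), `tr j` (translation by the basis vector `j`),
  `mx j` (multiplication by the coordinate `j`).

The constants (`BConst`) do not depend on the instance.
-/

namespace Vale.Agent.P330.W

open Finset

/-- Positions. -/
abbrev Jx (κ : ℕ) : Type := Fin κ → ZMod 2

/-- The word `u`, translated by the basis vector `j`. -/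
def trW {κ : ℕ} {K : Type*} (j : Fin κ) (u : Jx κ → K) : Jx κ → K :=
  fun x => u (x + Pi.single j 1)

/-- The word `u`, multiplied by the coordinate `j`. -/
def mxW {κ : ℕ} {K : Type*} [Zero K] (j : Fin κ) (u : Jx κ → K) : Jx κ → K :=
  fun x => if x j = 0 then 0 else u x

/-- Constants of a family of bundle systems. -/
structure BConst where
  /-- distance of the code -/
  θ : ℝ
  /-- factor of the closure -/
  C : ℝ
  /-- radius of the closure -/
  ρ₁ : ℝ
  /-- radius of the decoder -/
  ρ₂ : ℝ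
  /-- admissible fraction of bad sites for the anchor -/
  η₀ : ℝ
  θ_pos : 0 < θ
  C_pos : 1 ≤ C
  ρ₁_pos : 0 < ρ₁
  ρ₂_pos : 0 < ρ₂
  η₀_pos : 0 < η₀

/-- A bundle system, with the names `T` of the wires and the set `Lab` of labels. -/
structure BSys (T Lab : Type) [Fintype T] [Fintype Lab] (c : BConst) where
  /-- sites -/
  Ω : Type
  fΩ : Fintype Ω
  dΩ : DecidableEq Ω
  nΩ : Nonempty Ω
  /-- wires -/
  wire : T → Ω ≃ Ω
  /-- the name of the identity -/
  t0 : T
  wire_t0 : wire t0 = Equiv.refl Ω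
  /-- the wires of the majority decoder -/
  tm : Lab → T
  /-- number of coordinates -/
  κ : ℕ
  /-- the field -/
  K : Type
  fK : Field K
  tK : Fintype K
  dK : DecidableEq K
  cK : CharP K 2
  /-- the label of the raw content -/
  b0 : Lab
  /-- number of entries of a bundle, minus one -/
  nb : ℕ
  /-- position of a site -/
  pos : Ω → Jx κ
  /-- all positions have the same number of sites -/
  pos_card : ∀ x, Fintype.card Ω = 2 ^ κ * #(univ.filter fun h => pos h = x)
  /-- the bundle of a word -/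
  bw : Fin (nb + 1) → (Jx κ → K) →ₗ[K] (Ω → Lab → K)
  /-- the links -/
  link : Fin (nb + 1) → Ω → (Fin (nb + 1) → T → Lab → K) → Lab → K
  link_congr : ∀ β h a a', (∀ β' < β, ∀ t, a β' t = a' β' t) → link β h a = link β h a'
  link_ok : ∀ β, β ≠ 0 → ∀ u h, link β h (fun β' t => bw β' u (wire t h)) = bw β u h
  /-- the code -/
  M : Submodule K (Ω → Lab → K)
  /-- the local checks -/
  chk : Ω → Submodule K (T → Lab → K)
  mem_M : ∀ w, w ∈ M ↔ ∀ h, (fun t => w (wire t h)) ∈ chk h
  bw_mem : ∀ β u, bw β u ∈ M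
  /-- distance -/
  dist : ∀ w ∈ M, w ≠ 0 → c.θ * Fintype.card Ω ≤ #(univ.filter fun h => w h ≠ 0)
  /-- the closure of a set of sites -/
  cl : Finset Ω → Finset Ω
  cl_sub : ∀ B, B ⊆ cl B
  cl_mono : ∀ B B', B ⊆ B' → cl B ⊆ cl B'
  cl_card : ∀ B, (#(cl B) : ℝ) ≤ c.C * #B
  cl_spec : ∀ (w : Ω → Lab → K) (B : Finset Ω),
    (#(univ.filter fun h => w h ≠ 0) : ℝ) ≤ c.ρ₁ * Fintype.card Ω →
    (∀ h, h ∉ B → (fun t => w (wire t h)) ∈ chk h) → ∀ h, h ∉ cl B → w h = 0
  /-- functions which are locally constant outside a small set -/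
  cl_const : ∀ {α : Type} (f : Ω → α) (B : Finset Ω), (#B : ℝ) ≤ c.η₀ * Fintype.card Ω →
    (∀ h, h ∉ B → ∀ t, f (wire t h) = f h) → ∃ a, ∀ h, h ∉ cl B → f h = a
  /-- the decoder -/
  dec : Ω → (T → Option (Lab → K)) → Lab → K
  /-- where the decoder may fail, if the errors are in the given set -/
  F : Finset Ω → Finset Ω
  F_card : ∀ E, (#E : ℝ) ≤ c.ρ₂ * Fintype.card Ω → (#(F E) : ℝ) ≤ 1 / 4 * #E
  dec_spec : ∀ w ∈ M, ∀ (s : Ω → Option (Lab → K)) (E : Finset Ω),
    (#E : ℝ) ≤ c.ρ₂ * Fintype.card Ω →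
    (∀ h, h ∉ E → s h = some (w h)) → ∀ h, h ∉ F E → dec h (fun t => s (wire t h)) = w h
  /-- outside `F E` the majority of the wires `tm b` leads to sites outside `E` -/
  F_maj : ∀ E, (#E : ℝ) ≤ c.ρ₂ * Fintype.card Ω → ∀ h, h ∉ F E →
    Fintype.card Lab < 2 * #(univ.filter fun b => wire (tm b) h ∉ E)
  /-- the anchor test -/
  anc : Ω → (Fin (nb + 1) → T → Lab → K) → Prop
  anc_ok : ∀ u h, anc h fun β t => bw β u (wire t h)
  anchor : ∀ B : Finset Ω, (#B : ℝ) ≤ c.η₀ * Fintype.card Ω →
    ∀ W : Fin (nb + 1) → Ω → Lab → K,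
    (∀ h, h ∉ B → (∀ β, β ≠ 0 → W β h = link β h fun β' t => W β' (wire t h)) ∧
      (∀ β, (fun t => W β (wire t h)) ∈ chk h) ∧ anc h fun β t => W β (wire t h)) →
    ∃ u, ∀ h, h ∉ cl B → ∀ β, W β h = bw β u h
  /-- the raw content -/
  raw : ∀ u h, bw 0 u h b0 = u (pos h)
  /-- translations -/
  tr : Fin κ → Fin (nb + 1)
  tr_ok : ∀ j u, bw (tr j) u = bw 0 (trW j u)
  /-- multiplication by coordinates -/
  mx : Fin κ → Fin (nb + 1)
  mx_ok : ∀ j u, bw (mx j) u = bw 0 (mxW j u)

attribute [instance] BSys.fΩ BSys.dΩ BSys.nΩ BSys.fK BSys.tK BSys.dK BSys.cK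

end Vale.Agent.P330.W
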