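import Vale.Agent.P330.W.Bundle

/-!
# Project W: sites, wires, Tanner code, left programs

Sites are the elements `(x, v)` of the semidirect product of `Jx κ = (ZMod 2) ^ κ` with a finite group
`Γ`.  Labels `b` are elements `(s b, η b)`, generators `θ : Th` are elements `(gs θ, gη θ)`.

* `Geo.mul`, `Geo.inv`: the group of sites.
* `GT`: the names of the wires, `Geo.wire` the wires.
* `Geo.M`: the Tanner code: at every site `h` the vector `w h` is in `CL` (left check) and the vector
  `b ↦ w (h * b⁻¹) b` is in `CR` (right check).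
* `Geo.act g w`: action of the group algebra; `Geo.lam`: left translations;
* `LOp`, `Geo.evalL`: left programs.
* `LinSol`: the vector `G` of the code and a left program that computes everything we need.
-/

namespace Vale.Agent.P330.W

open Finset

/-- Sites: a position `x` and an element `v` of the small group. -/
@[ext] structure Site (κ : ℕ) (Γ : Type) where
  x : Jx κ
  v : Γ
  deriving DecidableEq, Fintype

/-- Sites, labels, generators, local codes. -/
structure Geo (Lab Th : Type) where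
  κ : ℕ
  Γ : Type
  gΓ : Group Γ
  fΓ : Fintype Γ
  dΓ : DecidableEq Γ
  /-- the action of `Γ` -/
  act : Γ → Jx κ →+ Jx κ
  act_one : ∀ x, act 1 x = x
  act_mul : ∀ v w x, act (v * w) x = act v (act w x)
  /-- labels -/
  s : Lab → Jx κ
  η : Lab → Γ
  b0 : Lab
  /-- generators -/
  gs : Th → Jx κ
  gη : Th → Γ
  K : Type
  fK : Field K
  tK : Fintype K
  dK : DecidableEq K
  cK : CharP K 2
  /-- local code of the left checks -/
  CL : Submodule K (Lab → K)
  /-- local code of the right checks -/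
  CR : Submodule K (Lab → K)

attribute [instance] Geo.gΓ Geo.fΓ Geo.dΓ Geo.fK Geo.tK Geo.dK Geo.cK

/-- Names of the wires. -/
inductive GT (Lab Th : Type)
  /-- `h` -/
  | id
  /-- `h * b` -/
  | r (b : Lab)
  /-- `h * b⁻¹` -/
  | ri (b : Lab)
  /-- `h * b * b'⁻¹` -/
  | rri (b b' : Lab)
  /-- `b * h` -/
  | l (b : Lab)
  /-- `b⁻¹ * h` -/
  | li (b : Lab)
  /-- `θ * h` -/
  | th (θ : Th)
  /-- `θ⁻¹ * h` -/
  | thi (θ : Th)
  /-- `h⁻¹` -/
  | inv
  deriving DecidableEq, Fintype

namespace Geo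

variable {Lab Th : Type} (g : Geo Lab Th)

/-- sites -/
abbrev Ω : Type := Site g.κ g.Γ

/-- multiplication of sites -/
def mul (h k : g.Ω) : g.Ω := ⟨h.x + g.act h.v k.x, h.v * k.v⟩

/-- inverse of a site -/
def inv (h : g.Ω) : g.Ω := ⟨g.act h.v⁻¹ h.x, h.v⁻¹⟩

theorem add_self {κ : ℕ} (x : Jx κ) : x + x = 0 := by
  funext i
  exact CharTwo.add_self_eq_zero (x i)

theorem mul_assoc' (h k l : g.Ω) : g.mul (g.mul h k) l = g.mul h (g.mul k l) := by
  ext1
  · simp only [mul, g.act_mul, map_add, add_assoc]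
  · simp only [mul, mul_assoc]

theorem one_mul' (h : g.Ω) : g.mul ⟨0, 1⟩ h = h := by
  ext1
  · simp only [mul, g.act_one, zero_add]
  · simp only [mul, one_mul]

theorem inv_mul' (h : g.Ω) : g.mul (g.inv h) h = ⟨0, 1⟩ := by
  ext1
  · simp only [mul, inv, add_self]
  · simp [mul, inv]

/-- the group of sites -/
instance : Group g.Ω :=
  { mul := g.mul
    one := ⟨0, 1⟩
    inv := g.inv
    mul_assoc := g.mul_assoc'
    one_mul := g.one_mul'
    mul_one := fun h => by
      change g.mul h ⟨0, 1⟩ = h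
      ext1
      · simp only [mul, map_zero, add_zero]
      · simp only [mul, mul_one]
    inv_mul_cancel := g.inv_mul' }

theorem mul_x (h k : g.Ω) : (h * k).x = h.x + g.act h.v k.x := rfl

theorem mul_v (h k : g.Ω) : (h * k).v = h.v * k.v := rfl

theorem one_x : (1 : g.Ω).x = 0 := rfl

theorem one_v : (1 : g.Ω).v = 1 := rfl

theorem inv_x (h : g.Ω) : (h⁻¹).x = g.act h.v⁻¹ h.x := rfl

theorem inv_v (h : g.Ω) : (h⁻¹).v = h.v⁻¹ := rfl

/-- the label `b` as an element of the group -/
def lb (b : Lab) : g.Ω := ⟨g.s b, g.η b⟩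

/-- the generator `θ` as an element of the group -/
def gen (θ : Th) : g.Ω := ⟨g.gs θ, g.gη θ⟩

/-- **The wires.** -/
def wire : GT Lab Th → g.Ω ≃ g.Ω
  | .id => Equiv.refl _
  | .r b => Equiv.mulRight (g.lb b)
  | .ri b => Equiv.mulRight (g.lb b)⁻¹
  | .rri b b' => (Equiv.mulRight (g.lb b)).trans (Equiv.mulRight (g.lb b')⁻¹)
  | .l b => Equiv.mulLeft (g.lb b)
  | .li b => Equiv.mulLeft (g.lb b)⁻¹
  | .th θ => Equiv.mulLeft (g.gen θ)
  | .thi θ => Equiv.mulLeft (g.gen θ)⁻¹
  | .inv => Equiv.inv _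

/-- words -/
abbrev Wd : Type := g.Ω → Lab → g.K

/-- **The Tanner code.** -/
def M : Submodule g.K g.Wd where
  carrier := {w | ∀ h : g.Ω, w h ∈ g.CL ∧ (fun b => w (h * (g.lb b)⁻¹) b) ∈ g.CR}
  add_mem' ha hb h := ⟨g.CL.add_mem (ha h).1 (hb h).1, g.CR.add_mem (ha h).2 (hb h).2⟩
  zero_mem' h := ⟨g.CL.zero_mem, g.CR.zero_mem⟩
  smul_mem' a _ hw h := ⟨g.CL.smul_mem a (hw h).1, g.CR.smul_mem a (hw h).2⟩

/-- action of an element of the group algebra of `Jx κ` -/
def smulR (u : Jx g.κ → g.K) (w : g.Wd) : g.Wd :=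
  fun h b => ∑ y : Jx g.κ, u y * w ⟨h.x + y, h.v⟩ b

/-- product in the group algebra -/
def conv (u u' : Jx g.κ → g.K) : Jx g.κ → g.K := fun x => ∑ y : Jx g.κ, u y * u' (x + y)

/-- left translation: `(lam k w) h = w (k⁻¹ * h)` -/
def lam (k : g.Ω) (w : g.Wd) : g.Wd := fun h => w (k⁻¹ * h)

/-- the unit of the group algebra -/
def δ0 : Jx g.κ → g.K := fun x => if x = 0 then 1 else 0

/-- the word with the symbols `G v b x` -/
def wordOf (G : g.Γ → Lab → Jx g.κ → g.K) : g.Wd := fun h b => G h.v b h.x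

/-- derivation of the coordinate `j` -/
def der (j : Fin g.κ) (u : Jx g.κ → g.K) : Jx g.κ → g.K := mxW j u

end Geo

/-- Instructions of left programs. -/
inductive LOp (Th K : Type)
  /-- left translation by a generator -/
  | lam (θ : Th) (i : ℕ)
  /-- linear combination -/
  | lin (l : List (K × ℕ))

/-- Value of an instruction. -/
def Geo.opL {Lab Th : Type} (g : Geo Lab Th) (R : List g.Wd) : LOp Th g.K → g.Wd
  | .lam θ i => g.lam (g.gen θ) (R.getD i 0)
  | .lin l => (l.map fun q => q.1 • R.getD q.2 0).sum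

/-- The registers of a left program, applied to `w` (which is the register `0`). -/
def Geo.evalL {Lab Th : Type} (g : Geo Lab Th) (p : List (LOp Th g.K)) (w : g.Wd) : List g.Wd :=
  p.foldl (fun R o => R ++ [g.opL R o]) [w]

/-- The program only reads earlier registers. -/
def LOpsOK {Th K : Type} (p : List (LOp Th K)) : Prop :=
  ∀ i (h : i < p.length), match p[i]'h with
    | .lam _ j => j < i + 1
    | .lin l => ∀ q ∈ l, q.2 < i + 1

/-- **Output of the linear algebra block.** -/
structure LinSol {Lab Th : Type} (g : Geo Lab Th) where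
  /-- the symbols of the word of the unit -/
  G : g.Γ → Lab → Jx g.κ → g.K
  G_b0 : ∀ v, G v g.b0 = g.δ0
  G_mem : g.wordOf G ∈ g.M
  /-- the program -/
  p : List (LOp Th g.K)
  p_ok : LOpsOK p
  /-- multiplication by `G v b` -/
  iP : g.Γ → Lab → ℕ
  iP_ok : ∀ v b w, (g.evalL p w).getD (iP v b) 0 = g.smulR (G v b) w
  /-- multiplication by the derivative of `G v b` -/
  iD : Fin g.κ → g.Γ → Lab → ℕ
  iD_ok : ∀ j v b w, (g.evalL p w).getD (iD j v b) 0 = g.smulR (g.der j (G v b)) w
  /-- translation by the basis vector `j` -/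
  iT : Fin g.κ → ℕ
  iT_ok : ∀ j w, (g.evalL p w).getD (iT j) 0 = fun h => w ⟨h.x + Pi.single j 1, h.v⟩
  /-- the registers of the anchor: `h ↦ (G v b • w) (v * h)` -/
  iL : g.Γ → Lab → ℕ
  iL_ok : ∀ v b w, (g.evalL p w).getD (iL v b) 0 =
    g.lam (⟨0, v⟩ : g.Ω)⁻¹ (g.smulR (G v b) w)
  /-- length of the chain of generators that leads back from the register `iL v b` -/
  cn : g.Γ → Lab → ℕ
  /-- the registers of the chain -/
  cr : g.Γ → Lab → ℕ → ℕ
  /-- the generators of the chain -/
  ct : g.Γ → Lab → ℕ → Th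
  cr_zero : ∀ v b, cr v b 0 = iL v b
  cr_succ : ∀ v b k, k < cn v b →
    0 < cr v b (k + 1) ∧ p[cr v b (k + 1) - 1]? = some (LOp.lam (ct v b k) (cr v b k))
  /-- the product of the generators of the chain is `v` -/
  ct_prod : ∀ v b, ((List.range (cn v b)).map fun k => g.gen (ct v b k)).reverse.prod =
    (⟨0, v⟩ : g.Ω)

end Vale.Agent.P330.W
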