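import Vale.Agent.P330.W.BlockSem

/-!
# Project W: the register machine over a bundle system

States: extended states (`Q/Path.lean`) of the tuples of words of a word machine.  A block contains
for both sides the symbols of the base words and of all entries of the bundles of all registers (the
entries beyond the height are zero), the heights and the relation.
-/

namespace Vale.Agent.P330.W

open Finset
open Q (Dyn St)

variable {T Lab : Type} [Fintype T] [Fintype Lab] {c : BConst}

/-- Blocks. -/
structure RBlk (n0 n nb : ℕ) (Lab K : Type) where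
  rel : Bool
  ht : Bool → ℕ
  /-- symbols of the base words -/
  base : Bool → Fin n0 → Lab → K
  /-- symbols of the entry `β` of the bundle of the register `r` -/
  stk : Bool → Fin n → Fin (nb + 1) → Lab → K

section

variable (B : BSys T Lab c) (W : WMach B.κ B.K)

/-- number of registers -/
abbrev nR : ℕ := W.n0 + W.ops.length

/-- height of a full side -/
abbrev mR : ℕ := nR B W * (B.nb + 1)

/-- place of an entry in the stack -/
def idx (r : Fin (nR B W)) (β : Fin (B.nb + 1)) : ℕ := r * (B.nb + 1) + β

abbrev BlkR : Type := RBlk W.n0 (nR B W) B.nb Lab B.K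

/-- the bundles of the registers of a tuple -/
noncomputable def tru (x : Fin W.n0 → Jx B.κ → B.K) (r : Fin (nR B W)) (β : Fin (B.nb + 1)) :
    B.Ω → Lab → B.K := B.bw β (run W.ops x r)

/-- **The code of an extended state.** -/
noncomputable def codeR (s : St (Fin W.n0 → Jx B.κ → B.K)) (h : B.Ω) : BlkR B W where
  rel := s.rel
  ht := s.ht
  base σ i := B.bw 0 (s.base σ i) h
  stk σ r β := if idx B W r β < s.ht σ then tru B W (s.base σ) r β h else 0

/-- the entry of a bundle given by an atom -/
def atomIx : Atom B.κ → Fin (B.nb + 1)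
  | .id => 0
  | .tr j => B.tr j
  | .mx j => B.mx j

/-- the symbol computed by an instruction from the symbols of the registers `g r β` at the same
site -/
noncomputable def opS (h : B.Ω) (g : ℕ → Fin (B.nb + 1) → Lab → B.K) : Op B.κ B.K → Lab → B.K
  | .pub p => B.bw 0 p h
  | .lin l => fun b => (l.map fun q => q.1 * g q.2.2 (atomIx B q.2.1) b).sum
  | .smul s r => fun b => g s 0 B.b0 * g r 0 b

/-- symbols of the registers of a side, as a function on all numbers -/
def getR (b : BlkR B W) (σ : Bool) (r : ℕ) (β : Fin (B.nb + 1)) : Lab → B.K :=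
  if h : r < nR B W then b.stk σ ⟨r, h⟩ β else 0

/-- the symbol of the entry `(r, β)` computed from the blocks at the wires -/
noncomputable def lnk (h : B.Ω) (b : T → BlkR B W) (σ : Bool) (r : Fin (nR B W))
    (β : Fin (B.nb + 1)) : Lab → B.K :=
  if β = 0 then
    if hr : (r : ℕ) < W.n0 then (b B.t0).base σ ⟨r, hr⟩
    else opS B h (getR B W (b B.t0) σ) (W.ops[(r : ℕ) - W.n0]'(by have := r.2; simp only [nR] at this; omega))
  else B.link β h fun β' t => (b t).stk σ r β'

/-- an assertion holds at a site -/
def asrS (g : ℕ → Fin (B.nb + 1) → Lab → B.K) : Asr B.K → Prop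
  | .eq0 r => g r 0 = 0
  | .cst r => ∀ j, g r (B.tr j) = g r 0
  | .pt l => (l.map fun q => q.1 * (q.2.map fun r => g r 0 B.b0).prod).sum = 0

/-- the base words of the other side, computed from the side `σ` with the relation `rel` -/
def othS (b : BlkR B W) (rel σ : Bool) (i : Fin W.n0) : Lab → B.K :=
  if rel then getR B W b σ (W.out σ i) 0 else b.base σ i

/-- **The check.** -/
structure ChiR (h : B.Ω) (b : T → BlkR B W) : Prop where
  rel_const : ∀ t, (b t).rel = (b B.t0).rel
  ht_const : ∀ t, (b t).ht = (b B.t0).ht
  ht_le : ∀ σ, (b B.t0).ht σ ≤ mR B W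
  full : ∃ σ, (b B.t0).ht σ = mR B W
  chk_base : ∀ σ i, (fun t => (b t).base σ i) ∈ B.chk h
  chk_stk : ∀ σ r β, (fun t => (b t).stk σ r β) ∈ B.chk h
  links : ∀ σ r β, (b B.t0).stk σ r β =
    if idx B W r β < (b B.t0).ht σ then lnk B W h b σ r β else 0
  anc : ∀ σ, (b B.t0).ht σ = mR B W → ∀ r, B.anc h fun β t => (b t).stk σ r β
  asr : ∀ σ, (b B.t0).ht σ = mR B W → ∀ a ∈ W.asr, asrS B (getR B W (b B.t0) σ) a
  other : ∀ σ, (b B.t0).ht σ = mR B W → ∀ i,
    (b B.t0).base (!σ) i = othS B W (b B.t0) (b B.t0).rel σ i

/-- **The step.** -/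
noncomputable def phiR (z : Bool) (h : B.Ω) (b : T → BlkR B W) : BlkR B W :=
  let b0 := b B.t0
  let g := xor z b0.rel
  if b0.ht g ≠ mR B W then
    { b0 with
      ht := Function.update b0.ht g (b0.ht g + 1)
      stk := fun σ r β => if σ = g ∧ idx B W r β = b0.ht g then lnk B W h b σ r β else b0.stk σ r β }
  else if b0.ht (!g) ≠ 0 then
    { b0 with
      ht := Function.update b0.ht (!g) (b0.ht (!g) - 1)
      stk := fun σ r β => if σ = !g ∧ idx B W r β + 1 = b0.ht (!g) then 0 else b0.stk σ r β }
  else
    { b0 with
      rel := !b0.rel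
      base := Function.update b0.base (!g) (othS B W b0 (!b0.rel) g) }

open Classical in
/-- Majority of the values at the wires `tm`. -/
noncomputable def majR {α : Type} [Inhabited α] (f : T → Option α) : α :=
  if h : ∃ a, Fintype.card Lab < 2 * #(univ.filter fun b : Lab => f (B.tm b) = some a) then h.choose
  else default

/-- **The decoder.** -/
noncomputable def etaR (h : B.Ω) (s : T → Option (BlkR B W)) : BlkR B W where
  rel := majR B fun t => (s t).map RBlk.rel
  ht := majR B fun t => (s t).map RBlk.ht
  base σ i := B.dec h fun t => (s t).map fun b => b.base σ i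
  stk σ r β := B.dec h fun t => (s t).map fun b => b.stk σ r β

open Classical in
/-- **The block system of a word machine.** -/
noncomputable def regSem (hW : W.Laws) (hm : 0 < mR B W) : BlockSem T where
  Ω := B.Ω
  fΩ := inferInstance
  dΩ := inferInstance
  nΩ := inferInstance
  wire := B.wire
  Blk := BlkR B W
  dBlk := Classical.decEq _
  X := St (Fin W.n0 → Jx B.κ → B.K)
  D := (W.dyn hW).ext (mR B W) hm
  code := codeR B W
  chi := ChiR B W
  eta := etaR B W
  phi := phiR B W

end

/-- **The register machine satisfies the hypotheses of the composition theorem.** -/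
def RegStmt (T Lab : Type) [Fintype T] [Fintype Lab] (c : BConst) : Prop :=
  ∃ k : KConst, ∀ (B : BSys T Lab c) (W : WMach B.κ B.K) (hW : W.Laws) (hm : 0 < mR B W),
    (regSem B W hW hm).Facts k

end Vale.Agent.P330.W
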