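import Vale.Agent.P330.W.Bundle
import Vale.Agent.P330.Q.Path

/-!
# Project W: word machines

A word machine works on tuples of words `u : Jx κ → K`.  Its program computes from the base words
`u 0, …, u (n0 - 1)` further words by the instructions `Op`; the assertions `Asr` say which tuples are
valid configurations.  `WMach` collects program, assertions, outputs (the base words of the successor
and of the predecessor) and the laws of the dynamics.  `WMach.robust`: a tuple which satisfies all
assertions `eq0`, `cst` exactly and the pointwise assertions at `90` percent of the positions is a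
valid configuration.
-/

namespace Vale.Agent.P330.W

open Finset
open Q (Dyn)

/-- What can be read from the bundle of a word. -/
inductive Atom (κ : ℕ)
  | id
  | tr (j : Fin κ)
  | mx (j : Fin κ)

/-- Meaning of an atom. -/
def Atom.app {κ : ℕ} {K : Type*} [Zero K] : Atom κ → (Jx κ → K) → Jx κ → K
  | .id, u => u
  | .tr j, u => trW j u
  | .mx j, u => mxW j u

/-- Instructions. -/
inductive Op (κ : ℕ) (K : Type)
  /-- a public word -/
  | pub (p : Jx κ → K)
  /-- linear combination of entries of bundles of earlier registers -/
  | lin (l : List (K × Atom κ × ℕ))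
  /-- product of a constant word with a word -/
  | smul (s r : ℕ)

/-- Assertions. -/
inductive Asr (K : Type)
  /-- the word is zero -/
  | eq0 (r : ℕ)
  /-- the word is constant -/
  | cst (r : ℕ)
  /-- pointwise relation: the sum over the list of `c * ∏ r ∈ l, u r x` is zero -/
  | pt (l : List (K × List ℕ))

variable {κ : ℕ} {K : Type} [Field K]

/-- The new register. The registers so far are in the list `R`. -/
def Op.val (R : List (Jx κ → K)) : Op κ K → Jx κ → K
  | .pub p => p
  | .lin l => fun x => (l.map fun q => q.1 * q.2.1.app (R.getD q.2.2 0) x).sum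
  | .smul s r => fun x => R.getD s 0 x * R.getD r 0 x

/-- Registers after the program, as a list. -/
def runL (ops : List (Op κ K)) (R : List (Jx κ → K)) : List (Jx κ → K) :=
  ops.foldl (fun R o => R ++ [o.val R]) R

/-- The register `r`, for the base words `u`. -/
def run {n0 : ℕ} (ops : List (Op κ K)) (u : Fin n0 → Jx κ → K) (r : ℕ) : Jx κ → K :=
  (runL ops (List.ofFn u)).getD r 0

/-- A word is constant. -/
def Cst (u : Jx κ → K) : Prop := ∀ x y, u x = u y

/-- The value of a pointwise relation at `x`. -/
def ptVal (R : ℕ → Jx κ → K) (l : List (K × List ℕ)) (x : Jx κ) : K :=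
  (l.map fun q => q.1 * (q.2.map fun r => R r x).prod).sum

/-- The assertion holds. -/
def Asr.Holds (R : ℕ → Jx κ → K) : Asr K → Prop
  | .eq0 r => R r = 0
  | .cst r => Cst (R r)
  | .pt l => ∀ x, ptVal R l x = 0

open Classical in
/-- The assertion holds; pointwise relations need only hold at `90` percent of the positions. -/
def Asr.HoldsR (R : ℕ → Jx κ → K) : Asr K → Prop
  | .eq0 r => R r = 0
  | .cst r => Cst (R r)
  | .pt l => (9 / 10 : ℝ) * 2 ^ κ ≤ #(univ.filter fun x => ptVal R l x = 0)

/-- The program only reads earlier registers. -/
def OpsOK (n0 : ℕ) (ops : List (Op κ K)) : Prop :=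
  ∀ i (h : i < ops.length), match ops[i] with
    | .pub _ => True
    | .lin l => ∀ q ∈ l, q.2.2 < n0 + i
    | .smul s r => s < n0 + i ∧ r < n0 + i

/-- A word machine. -/
structure WMach (κ : ℕ) (K : Type) [Field K] where
  /-- number of base registers -/
  n0 : ℕ
  /-- the program; the instruction number `i` computes the register `n0 + i` -/
  ops : List (Op κ K)
  ops_ok : OpsOK n0 ops
  /-- the assertions -/
  asr : List (Asr K)
  /-- first factors of products are constant -/
  asr_cst : ∀ s r, Op.smul s r ∈ ops → Asr.cst s ∈ asr
  /-- the registers which hold the base words of the successor (`false`), predecessor (`true`) -/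
  out : Bool → Fin n0 → ℕ
  out_lt : ∀ z i, out z i < n0 + ops.length
  /-- the start -/
  w0 : Fin n0 → Jx κ → K

namespace WMach

variable (W : WMach κ K)

/-- Valid configurations. -/
def Valid (u : Fin W.n0 → Jx κ → K) : Prop := ∀ a ∈ W.asr, a.Holds (run W.ops u)

/-- Successor (`false`), predecessor (`true`). -/
def step (z : Bool) (u : Fin W.n0 → Jx κ → K) : Fin W.n0 → Jx κ → K :=
  fun i => run W.ops u (W.out z i)

/-- The laws of the dynamics. -/
structure Laws : Prop where
  robust : ∀ u : Fin W.n0 → Jx κ → K, (∀ a ∈ W.asr, a.HoldsR (run W.ops u)) → W.Valid u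
  valid0 : W.Valid W.w0
  inv : ∀ z w, W.Valid w → W.Valid (W.step z w) → W.step (!z) (W.step z w) = w
  start : ¬ W.Valid (W.step true W.w0)
  /-- after a step from a valid configuration the first factors of products are constant -/
  step_cst : ∀ z w, W.Valid w → ∀ s r, Op.smul s r ∈ W.ops → Cst (run W.ops (W.step z w) s)

/-- The dynamics. -/
def dyn (h : W.Laws) : Dyn (Fin W.n0 → Jx κ → K) where
  Valid := W.Valid
  step := W.step
  w0 := W.w0
  valid0 := h.valid0
  inv := h.inv
  start := h.start

end WMach

end Vale.Agent.P330.W
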